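import Mathlib

/-!
Definitions for P372: states, separability, purifications, key-distillation protocols
(two-way public communication), protocol error and distillable secret key.
-/

namespace Vale.Agent.P372

open Matrix Filter
open scoped Kronecker ComplexOrder ENNReal Topology

/-- A density operator: positive semidefinite with trace one. -/
def IsState {n : Type} [Fintype n] (ρ : Matrix n n ℂ) : Prop :=
  ρ.PosSemidef ∧ ρ.trace = 1

/-- A finite convex combination of product states. -/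
def IsSeparable {A B : Type} [Fintype A] [Fintype B] (ρ : Matrix (A × B) (A × B) ℂ) : Prop :=
  ∃ (m : ℕ) (p : Fin m → ℝ) (α : Fin m → Matrix A A ℂ) (β : Fin m → Matrix B B ℂ),
    (∀ i, 0 ≤ p i) ∧ ∑ i, p i = 1 ∧ (∀ i, IsState (α i)) ∧ (∀ i, IsState (β i)) ∧
      ρ = ∑ i, (p i : ℂ) • (α i ⊗ₖ β i)

/-- The trace norm `tr √(X* X)`. -/
noncomputable def traceNorm {n : Type} [Fintype n] [DecidableEq n] (X : Matrix n n ℂ) : ℝ :=
  (cfc Real.sqrt (Xᴴ * X)).trace.re

/-- Partial trace over the second factor. -/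
def traceSnd {X E : Type} [Fintype E] (ω : Matrix (X × E) (X × E) ℂ) : Matrix X X ℂ :=
  fun x y => ∑ e, ω (x, e) (y, e)

/-- Partial trace over the first factor. -/
def traceFst {X E : Type} [Fintype X] (ω : Matrix (X × E) (X × E) ℂ) : Matrix E E ℂ :=
  fun e f => ∑ x, ω (x, e) (x, f)

/-- The rank-one operator `|ψ⟩⟨ψ|`. -/
def ketBra {X : Type} (ψ : X → ℂ) : Matrix X X ℂ :=
  vecMulVec ψ (star ψ)

/-- `ψ` on `X ⊗ E` is a purification of `ρ` on `X`. -/
def IsPurification {X E : Type} [Fintype E] (ψ : X × E → ℂ) (ρ : Matrix X X ℂ) : Prop :=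
  traceSnd (ketBra ψ) = ρ

/-- The vector `ψ^{⊗ n}` on `(A^n ⊗ B^n) ⊗ E^n`; basis vectors of `A^n` and `B^n` are
numbered through the standard bijection between `n`-tuples in `Fin d` and `Fin (d ^ n)`. -/
def tensorPow {dA dB : ℕ} {E : Type} (ψ : (Fin dA × Fin dB) × E → ℂ) (n : ℕ) :
    (Fin (dA ^ n) × Fin (dB ^ n)) × (Fin n → E) → ℂ :=
  fun x => ∏ i : Fin n,
    ψ ((finFunctionFinEquiv.symm x.1.1 i, finFunctionFinEquiv.symm x.1.2 i), x.2 i)

/-- A measurement with outcomes in `K`. -/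
def IsPOVM {K : Type} [Fintype K] {d : ℕ} (M : K → Matrix (Fin d) (Fin d) ℂ) : Prop :=
  (∀ z, (M z).PosSemidef) ∧ ∑ z, M z = 1

/-- Key-distillation protocols with key length `ℓ`; the two indices are the current dimensions
of the laboratories of Alice and Bob.  In a round one party applies an arbitrary quantum
instrument (Kraus operators `V m j`, output dimension `d m`), announces its classical outcome
`m` publicly, and the rest of the protocol may depend on `m`.  At the end each party measures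
its laboratory to obtain its key register. -/
inductive Protocol (ℓ : ℕ) : ℕ → ℕ → Type
  | finish {dA dB : ℕ}
      (MA : (Fin ℓ → Bool) → Matrix (Fin dA) (Fin dA) ℂ)
      (MB : (Fin ℓ → Bool) → Matrix (Fin dB) (Fin dB) ℂ)
      (hA : IsPOVM MA) (hB : IsPOVM MB) : Protocol ℓ dA dB
  | alice {dA dB : ℕ} (k r : ℕ) (d : Fin k → ℕ)
      (V : (m : Fin k) → Fin r → Matrix (Fin (d m)) (Fin dA) ℂ)
      (hV : ∑ m, ∑ j, (V m j)ᴴ * V m j = 1)
      (next : (m : Fin k) → Protocol ℓ (d m) dB) : Protocol ℓ dA dB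
  | bob {dA dB : ℕ} (k r : ℕ) (d : Fin k → ℕ)
      (V : (m : Fin k) → Fin r → Matrix (Fin (d m)) (Fin dB) ℂ)
      (hV : ∑ m, ∑ j, (V m j)ᴴ * V m j = 1)
      (next : (m : Fin k) → Protocol ℓ dA (d m)) : Protocol ℓ dA dB

/-- The possible complete public transcripts of a protocol. -/
def Transcript {ℓ : ℕ} : {dA dB : ℕ} → Protocol ℓ dA dB → Type
  | _, _, .finish _ _ _ _ => Unit
  | _, _, .alice k _ _ _ _ next => (m : Fin k) × Transcript (next m)
  | _, _, .bob k _ _ _ _ next => (m : Fin k) × Transcript (next m)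

/-- There are finitely many transcripts. -/
theorem finite_transcript {ℓ dA dB : ℕ} (P : Protocol ℓ dA dB) : Finite (Transcript P) := by
  induction P with
  | finish _ _ _ _ => exact inferInstanceAs (Finite Unit)
  | alice k _ _ _ _ next ih => exact inferInstanceAs (Finite ((m : Fin k) × Transcript (next m)))
  | bob k _ _ _ _ next ih => exact inferInstanceAs (Finite ((m : Fin k) × Transcript (next m)))

noncomputable instance fintypeTranscript {ℓ dA dB : ℕ} (P : Protocol ℓ dA dB) :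
    Fintype (Transcript P) :=
  @Fintype.ofFinite _ (finite_transcript P)

noncomputable instance decEqTranscript {ℓ dA dB : ℕ} (P : Protocol ℓ dA dB) :
    DecidableEq (Transcript P) :=
  Classical.decEq _

/-- The unnormalised state of Eve's quantum system when the protocol, run on the joint state
`ω` of `(A ⊗ B) ⊗ E`, produces the transcript `t` and the keys `zA`, `zB`. -/
noncomputable def eveBlock {ℓ : ℕ} {E : Type} [Fintype E] [DecidableEq E] :
    {dA dB : ℕ} → (P : Protocol ℓ dA dB) →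
      Matrix ((Fin dA × Fin dB) × E) ((Fin dA × Fin dB) × E) ℂ → Transcript P →
      (Fin ℓ → Bool) → (Fin ℓ → Bool) → Matrix E E ℂ
  | _, _, .finish MA MB _ _, ω, _, zA, zB =>
      traceFst (((MA zA ⊗ₖ MB zB) ⊗ₖ (1 : Matrix E E ℂ)) * ω)
  | _, dB, .alice _ _ _ V _ next, ω, t, zA, zB =>
      eveBlock (next t.1)
        (∑ j, ((V t.1 j ⊗ₖ (1 : Matrix (Fin dB) (Fin dB) ℂ)) ⊗ₖ (1 : Matrix E E ℂ)) * ω *
          ((V t.1 j ⊗ₖ (1 : Matrix (Fin dB) (Fin dB) ℂ)) ⊗ₖ (1 : Matrix E E ℂ))ᴴ) t.2 zA zB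
  | dA, _, .bob _ _ _ V _ next, ω, t, zA, zB =>
      eveBlock (next t.1)
        (∑ j, (((1 : Matrix (Fin dA) (Fin dA) ℂ) ⊗ₖ V t.1 j) ⊗ₖ (1 : Matrix E E ℂ)) * ω *
          (((1 : Matrix (Fin dA) (Fin dA) ℂ) ⊗ₖ V t.1 j) ⊗ₖ (1 : Matrix E E ℂ))ᴴ) t.2 zA zB

/-- The final state on `K_A K_B E'`, where `E'` is Eve's quantum system together with her copy
of the transcript. -/
noncomputable def finalState {ℓ dA dB : ℕ} {E : Type} [Fintype E] [DecidableEq E]
    (P : Protocol ℓ dA dB) (ω : Matrix ((Fin dA × Fin dB) × E) ((Fin dA × Fin dB) × E) ℂ) :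
    Matrix (((Fin ℓ → Bool) × (Fin ℓ → Bool)) × (E × Transcript P))
      (((Fin ℓ → Bool) × (Fin ℓ → Bool)) × (E × Transcript P)) ℂ :=
  ∑ zA, ∑ zB, ∑ t,
    single (zA, zB) (zA, zB) (1 : ℂ) ⊗ₖ (eveBlock P ω t zA zB ⊗ₖ single t t (1 : ℂ))

/-- The ideal state `2^{-ℓ} ∑_z |z,z⟩⟨z,z| ⊗ σ`. -/
noncomputable def idealState (ℓ : ℕ) {F : Type} (σ : Matrix F F ℂ) :
    Matrix (((Fin ℓ → Bool) × (Fin ℓ → Bool)) × F) (((Fin ℓ → Bool) × (Fin ℓ → Bool)) × F) ℂ :=
  ((2 : ℂ) ^ ℓ)⁻¹ • ∑ z : Fin ℓ → Bool, single (z, z) (z, z) (1 : ℂ) ⊗ₖ σ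

/-- The protocol `P`, run on the pure state `φ`, has error `ε`. -/
def HasError {ℓ dA dB : ℕ} {E : Type} [Fintype E] [DecidableEq E] (P : Protocol ℓ dA dB)
    (φ : (Fin dA × Fin dB) × E → ℂ) (ε : ℝ) : Prop :=
  ∃ σ : Matrix (E × Transcript P) (E × Transcript P) ℂ,
    IsState σ ∧ traceNorm (finalState P (ketBra φ) - idealState ℓ σ) ≤ ε

/-- The distillable secret key when Eve holds the system `E` of the purification `ψ`:
the supremum of `liminf ℓ_n / n` over sequences of protocols on `n` copies with errors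
tending to zero. -/
noncomputable def keyRate {dA dB : ℕ} {E : Type} [Fintype E] [DecidableEq E]
    (ψ : (Fin dA × Fin dB) × E → ℂ) : ℝ≥0∞ :=
  sSup {R : ℝ≥0∞ | ∃ (ℓ : ℕ → ℕ) (P : (n : ℕ) → Protocol (ℓ n) (dA ^ n) (dB ^ n)) (ε : ℕ → ℝ),
    (∀ n, HasError (P n) (tensorPow ψ n) (ε n)) ∧ Tendsto ε atTop (𝓝 0) ∧
      R = liminf (fun n : ℕ => (ℓ n : ℝ≥0∞) / (n : ℝ≥0∞)) atTop}

end Vale.Agent.P372
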